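import Vale.Agent.P033.Two

namespace Vale.Agent.P033

open Polynomial Finset

lemma ring_id {R : Type*} [CommRing R] {n : ℕ} [NeZero n] (g : Fin n → ℤ)
    (hg : ∀ t : Fin n, ∑ b, g (b + t) * g b = if t = 0 then (n : ℤ) else 0) {w w' : R}
    (hw : w ^ n = 1) (hw' : w * w' = 1) :
    (∑ a : Fin n, (g a : R) * w ^ (a : ℕ)) * (∑ b : Fin n, (g b : R) * w' ^ (b : ℕ)) = n := by
  have hadd : ∀ a b : Fin n, w ^ ((a + b : Fin n) : ℕ) = w ^ (a : ℕ) * w ^ (b : ℕ) := by
    intro a b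
    rw [Fin.val_add, ← pow_add]
    conv_rhs => rw [← Nat.mod_add_div (a + b : ℕ) n, pow_add, pow_mul, hw, one_pow, mul_one]
  rw [sum_mul_sum, sum_comm]
  have e : ∀ b : Fin n, ∑ a : Fin n, (g a : R) * w ^ (a : ℕ) * (g b * w' ^ (b : ℕ))
      = ∑ t : Fin n, w ^ (t : ℕ) * ((g (b + t) * g b : ℤ) : R) := by
    intro b
    rw [← Equiv.sum_comp (Equiv.addLeft b)]
    refine sum_congr rfl fun t _ => ?_
    have h1 : w ^ (b : ℕ) * w' ^ (b : ℕ) = 1 := by rw [← mul_pow, hw', one_pow]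
    simp only [Equiv.coe_addLeft]
    rw [hadd]
    push_cast
    linear_combination (w ^ (t : ℕ) * (g (b + t) : R) * g b) * h1
  simp only [e]
  rw [sum_comm]
  simp only [← mul_sum, ← Int.cast_sum, hg]
  rw [sum_eq_single 0]
  · simp
  · intro t _ ht
    simp [ht]
  · simp

lemma good_of_auto {n : ℕ} [NeZero n] (g : Fin n → ℤ)
    (hg : ∀ t : Fin n, ∑ b, g (b + t) * g b = if t = 0 then (n : ℤ) else 0) (h : ℕ → ℤ)
    (hh : ∀ a : Fin n, h a = g a) : Good h n := by
  unfold Good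
  rw [← Ideal.mem_span_singleton, ← Ideal.Quotient.eq_zero_iff_mem]
  set φ := Ideal.Quotient.mk (Ideal.span {(X ^ n - 1 : ℤ[X])})
  have hw : φ X ^ n = 1 := by
    rw [← sub_eq_zero, ← map_pow, ← map_one φ, ← map_sub, Ideal.Quotient.eq_zero_iff_mem]
    exact Ideal.subset_span rfl
  have hw' : φ X * φ X ^ (n - 1) = 1 := by
    rw [← pow_succ', Nat.sub_add_cancel (Nat.one_le_iff_ne_zero.mpr (NeZero.ne n)), hw]
  have := ring_id g hg hw hw'
  rw [map_sub, map_mul, map_cv, map_cv, map_pow, map_natCast, sub_eq_zero, ← this]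
  unfold cv
  rw [sum_range, sum_range]
  simp only [hh]

theorem main_real {n : ℕ} [NeZero n] (g : Fin n → ℝ) (hs : ∀ a, g a = 1 ∨ g a = -1)
    (hg : ∀ t : Fin n, ∑ b, g (b + t) * g b = if t = 0 then (n : ℝ) else 0) : n = 1 ∨ n = 4 := by
  classical
  let g' : Fin n → ℤ := fun a => if g a = 1 then 1 else -1
  have hc : ∀ a, (g' a : ℝ) = g a := fun a => by
    simp only [g']
    rcases hs a with h | h
    · simp [h]
    · rw [if_neg (by rw [h]; norm_num), h]; simp
  let h : ℕ → ℤ := fun j => if hj : j < n then g' ⟨j, hj⟩ else 1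
  refine main (h := h) (fun j => ?_) (NeZero.ne n) (good_of_auto g' (fun t => ?_) h fun a => ?_)
  · simp only [h, g']
    split_ifs
    · exact odd_one
    · exact odd_neg_one
    · exact odd_one
  · apply Int.cast_injective (α := ℝ)
    push_cast
    simp only [hc]
    rw [hg]
  · simp [h]

end Vale.Agent.P033
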