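import Vale.Agent.P033.Key

namespace Vale.Agent.P033

open Polynomial Finset

/-- half of the character value -/
def ah {F : Type} [Field F] (h : ℕ → ℤ) (n : ℕ) (w : F) : F := cv h n w / 2

/-- the alternating product -/
def Delta {F : Type} [Field F] (h : ℕ → ℤ) (n : ℕ) (R : Finset ℕ) (z : ℕ → F) (w : F) : F :=
  ∏ S ∈ R.powerset, ah h n (w * ∏ p ∈ S, z p) ^ ((-1 : ℤ) ^ S.card)

lemma map_ah {F F' : Type} [Field F] [Field F'] (φ : F →+* F') (h : ℕ → ℤ) (n : ℕ) (w : F) :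
    φ (ah h n w) = ah h n (φ w) := by
  simp [ah, map_cv, map_ofNat]

lemma map_Delta {F F' : Type} [Field F] [Field F'] (φ : F →+* F') (h : ℕ → ℤ) (n : ℕ)
    (R : Finset ℕ) (z : ℕ → F) (w : F) :
    φ (Delta h n R z w) = Delta h n R (fun p => φ (z p)) (φ w) := by
  simp [Delta, map_prod, map_ah]

lemma Delta_pair {F : Type} [Field F] [CharZero F] (h : ℕ → ℤ) (n : ℕ) {R : Finset ℕ} (z : ℕ → F)
    (w : F) {p : ℕ} (hp : p ∈ R) :
    Delta h n R z w = ∏ S ∈ (R.erase p).powerset,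
      (cv h n ((w * ∏ q ∈ S, z q) * z p) / cv h n (w * ∏ q ∈ S, z q)) ^ (-(-1 : ℤ) ^ S.card) := by
  unfold Delta
  conv_lhs => rw [← insert_erase hp]
  rw [prod_powerset_insert (notMem_erase p R), ← prod_mul_distrib]
  refine prod_congr rfl fun S hS => ?_
  have hpS : p ∉ S := fun h' => notMem_erase p R (mem_powerset.mp hS h')
  rw [prod_insert hpS, card_insert_of_notMem hpS, pow_succ, mul_neg_one]
  have e : w * (z p * ∏ q ∈ S, z q) = (w * ∏ q ∈ S, z q) * z p := by ring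
  have e2 : cv h n ((w * ∏ q ∈ S, z q) * z p) / cv h n (w * ∏ q ∈ S, z q)
      = ah h n ((w * ∏ q ∈ S, z q) * z p) / ah h n (w * ∏ q ∈ S, z q) := by
    unfold ah
    rw [div_div_div_cancel_right₀ two_ne_zero]
  rw [e, e2, div_zpow, zpow_neg (ah h n (w * ∏ q ∈ S, z q)), div_inv_eq_mul, mul_comm]

/-- the indicator part -/
def dd (h : ℕ → ℤ) (j : ℕ) : ℤ := (h j - 1) / 2

lemma cv_eq {R : Type*} [CommRing R] {h : ℕ → ℤ} (hs : ∀ j, Odd (h j)) (n : ℕ) (w : R) :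
    cv h n w = ∑ j ∈ range n, w ^ j + 2 * cv (dd h) n w := by
  unfold cv
  rw [mul_sum, ← sum_add_distrib]
  refine sum_congr rfl fun j _ => ?_
  obtain ⟨t, ht⟩ := hs j
  have : dd h j = t := by unfold dd; omega
  rw [this, ht]; push_cast; ring

lemma ah_eq {F : Type} [Field F] [CharZero F] {h : ℕ → ℤ} (hs : ∀ j, Odd (h j)) {n : ℕ} {w : F}
    (hw : w ^ n = 1) (h1 : w ≠ 1) : ah h n w = cv (dd h) n w := by
  have hs' : ∑ i ∈ range n, w ^ i = 0 := by
    have := geom_sum_mul w n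
    rw [hw, sub_self] at this
    exact (mul_eq_zero.mp this).resolve_right (sub_ne_zero.mpr h1)
  unfold ah
  rw [cv_eq hs, hs']
  field_simp
  ring

lemma ah_one {F : Type} [Field F] [CharZero F] {h : ℕ → ℤ} (hs : ∀ j, Odd (h j)) (t : ℕ) :
    ah h (4 * t) (1 : F) = 2 * t + cv (dd h) (4 * t) 1 := by
  unfold ah
  rw [cv_eq hs]
  simp
  field_simp
  ring

lemma ah_mul {F : Type} [Field F] [CharZero F] {h : ℕ → ℤ} {u : ℕ} (hu : u ≠ 0)
    (hG : Good h (4 * u ^ 2)) {w : F} (hw : w ^ (4 * u ^ 2) = 1) :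
    ah h (4 * u ^ 2) w * ah h (4 * u ^ 2) w⁻¹ = (u : F) ^ 2 := by
  have := hG.mul_inv (by positivity) hw
  unfold ah
  push_cast at this
  linear_combination this / 4

variable {L : Type} [Field L] [CharZero L] {Γ : Type*} [LinearOrderedCommGroupWithZero Γ]
  (v : Valuation L Γ)

omit [CharZero L] in
lemma cv_le (h : ℕ → ℤ) (n : ℕ) {w : L} (hw : v w ≤ 1) : v (cv h n w) ≤ 1 := by
  apply v.map_sum_le
  intro i _
  rw [map_mul, map_pow]
  exact mul_le_one' (int_le v _) (pow_le_one' hw _)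

lemma ah_le {h : ℕ → ℤ} (hs : ∀ j, Odd (h j)) {t : ℕ} (ht : t ≠ 0) {w : L}
    (hw : w ^ (4 * t) = 1) : v (ah h (4 * t) w) ≤ 1 := by
  by_cases h1 : w = 1
  · subst h1
    rw [ah_one hs]
    apply v.map_add_le _ (cv_le v _ _ (by simp))
    have := nat_le v (2 * t)
    push_cast at this
    exact this
  · rw [ah_eq hs hw h1]
    exact cv_le v _ _ (root_eq v (by positivity) hw).le

lemma ah_val {h : ℕ → ℤ} (hs : ∀ j, Odd (h j)) {u : ℕ} (hu : u ≠ 0) (hG : Good h (4 * u ^ 2))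
    (hvu : v (u : L) = 1) {w : L} (hw : w ^ (4 * u ^ 2) = 1) : v (ah h (4 * u ^ 2) w) = 1 := by
  have h1 := congrArg v (ah_mul hu hG hw)
  rw [map_mul, map_pow, hvu, one_pow] at h1
  have h2 := ah_le v hs (pow_ne_zero 2 hu) hw
  have h3 := ah_le v hs (pow_ne_zero 2 hu) (w := w⁻¹) (by rw [inv_pow, hw, inv_one])
  refine le_antisymm h2 ?_
  calc (1 : Γ) = _ := h1.symm
    _ ≤ _ := mul_le_of_le_one_right' h3

omit [CharZero L] in
lemma exists_prime_lt {u : ℕ} (hu : u ≠ 0) (hv : v (u : L) < 1) :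
    ∃ p ∈ u.primeFactors, v (p : L) < 1 := by
  induction u using induction_on_primes with
  | zero => exact absurd rfl hu
  | one => simp at hv
  | prime_mul p a hp ih =>
    have ha : a ≠ 0 := by rintro rfl; simp at hu
    by_cases h1 : v (p : L) < 1
    · exact ⟨p, Nat.mem_primeFactors.mpr ⟨hp, dvd_mul_right _ _, hu⟩, h1⟩
    · have h2 : v (p : L) = 1 := le_antisymm (nat_le v p) (not_lt.mp h1)
      push_cast at hv
      rw [map_mul, h2, one_mul] at hv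
      obtain ⟨q, hq, hq'⟩ := ih ha hv
      have := Nat.mem_primeFactors.mp hq
      exact ⟨q, Nat.mem_primeFactors.mpr ⟨this.1, this.2.1.mul_left _, hu⟩, hq'⟩

lemma prod_pow_eq_one {F : Type} [Field F] {u : ℕ} {z : ℕ → F}
    (hz : ∀ p ∈ u.primeFactors, z p ^ p = 1) {w : F} (hw : w ^ (4 * u ^ 2) = 1) {S : Finset ℕ}
    (hS : S ⊆ u.primeFactors) : (w * ∏ q ∈ S, z q) ^ (4 * u ^ 2) = 1 := by
  rw [mul_pow, hw, one_mul, ← prod_pow]
  refine prod_eq_one fun q hq => ?_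
  obtain ⟨c, hc⟩ := Nat.dvd_of_mem_primeFactors (hS hq)
  have : 4 * u ^ 2 = q * (4 * u * c) := by rw [pow_two]; nth_rw 2 [hc]; ring
  rw [this, pow_mul, hz q (hS hq), one_pow]

lemma Delta_P1 [IsAlgClosed L] {h : ℕ → ℤ} {u : ℕ} (hu : u ≠ 0) (hG : Good h (4 * u ^ 2))
    {z : ℕ → L} (hz : ∀ p ∈ u.primeFactors, z p ^ p = 1) {w : L} (hw : w ^ (4 * u ^ 2) = 1)
    {p : ℕ} (hp : p ∈ u.primeFactors) (hv : v (p : L) < 1) :
    P1 v (Delta h (4 * u ^ 2) u.primeFactors z w) := by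
  rw [Delta_pair h _ z w hp]
  apply prod_induction _ (P1 v) (fun a b ha hb => ha.mul v hb) (P1.one v)
  intro S hS
  apply P1.zpow
  exact key v hG (by positivity) (Nat.prime_of_mem_primeFactors hp) hv
    (prod_pow_eq_one hz hw ((mem_powerset.mp hS).trans (erase_subset _ _))) (hz p hp)

lemma Delta_val [IsAlgClosed L] {h : ℕ → ℤ} (hs : ∀ j, Odd (h j)) {u : ℕ} (hu : u ≠ 0)
    (hG : Good h (4 * u ^ 2)) {z : ℕ → L} (hz : ∀ p ∈ u.primeFactors, z p ^ p = 1) {w : L}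
    (hw : w ^ (4 * u ^ 2) = 1) : v (Delta h (4 * u ^ 2) u.primeFactors z w) = 1 := by
  by_cases hvu : v (u : L) < 1
  · obtain ⟨p, hp, hv⟩ := exists_prime_lt v hu hvu
    exact (Delta_P1 v hu hG hz hw hp hv).val
  · have h1 : v (u : L) = 1 := le_antisymm (nat_le v u) (not_lt.mp hvu)
    unfold Delta
    rw [map_prod]
    refine prod_eq_one fun S hS => ?_
    rw [map_zpow₀, ah_val v hs hu hG h1 (prod_pow_eq_one hz hw (mem_powerset.mp hS)), one_zpow]

lemma norm_cv {h : ℕ → ℤ} {n : ℕ} (hn : n ≠ 0) (hG : Good h n) {w : ℂ} (hw : w ^ n = 1) :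
    ‖cv h n w‖ = √n := by
  have h1 := hG.mul_inv hn hw
  have h2 : ‖w‖ = 1 := Complex.norm_eq_one_of_pow_eq_one hw hn
  rw [Complex.inv_eq_conj h2, ← map_cv, Complex.mul_conj, Complex.normSq_eq_norm_sq] at h1
  have h3 : ‖cv h n w‖ ^ 2 = n := by exact_mod_cast h1
  rw [← h3, Real.sqrt_sq (norm_nonneg _)]

lemma Delta_norm {h : ℕ → ℤ} {u : ℕ} (hu : u ≠ 0) (hG : Good h (4 * u ^ 2))
    {z : ℕ → ℂ} (hz : ∀ p ∈ u.primeFactors, z p ^ p = 1) {w : ℂ} (hw : w ^ (4 * u ^ 2) = 1)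
    {p : ℕ} (hp : p ∈ u.primeFactors) : ‖Delta h (4 * u ^ 2) u.primeFactors z w‖ = 1 := by
  rw [Delta_pair h _ z w hp, norm_prod]
  refine prod_eq_one fun S hS => ?_
  have hS' : S ⊆ u.primeFactors.erase p := mem_powerset.mp hS
  have hpS : p ∉ S := fun h' => notMem_erase p _ (hS' h')
  have h1 := prod_pow_eq_one hz hw (hS'.trans (erase_subset _ _))
  have h2 := prod_pow_eq_one hz hw (S := insert p S)
    (insert_subset hp (hS'.trans (erase_subset _ _)))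
  rw [prod_insert hpS, mul_comm (z p), ← mul_assoc] at h2
  have hn : 4 * u ^ 2 ≠ 0 := by positivity
  rw [norm_zpow, norm_div, norm_cv hn hG h1, norm_cv hn hG h2, div_self, one_zpow]
  positivity

lemma Delta_root {K : Type} [Field K] [NumberField K] {h : ℕ → ℤ} (hs : ∀ j, Odd (h j)) {u : ℕ}
    (hu : u ≠ 0) (hG : Good h (4 * u ^ 2)) {z : ℕ → K} (hz : ∀ p ∈ u.primeFactors, z p ^ p = 1)
    {w : K} (hw : w ^ (4 * u ^ 2) = 1) {p : ℕ} (hp : p ∈ u.primeFactors) :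
    ∃ N : ℕ, N ≠ 0 ∧ Delta h (4 * u ^ 2) u.primeFactors z w ^ N = 1 := by
  have hint : IsIntegral ℤ (Delta h (4 * u ^ 2) u.primeFactors z w) := by
    rw [← isIntegral_algebraMap_iff (algebraMap K (AlgebraicClosure K)).injective]
    apply isIntegral_of_val
    intro A
    rw [map_Delta]
    refine (Delta_val A.valuation hs hu hG (fun q hq => ?_) ?_).le
    · rw [← map_pow, hz q hq, map_one]
    · rw [← map_pow, hw, map_one]
  obtain ⟨N, hN, e⟩ := NumberField.Embeddings.pow_eq_one_of_norm_eq_one K ℂ hint fun φ => by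
    rw [map_Delta]
    refine Delta_norm hu hG (fun q hq => ?_) ?_ hp
    · rw [← map_pow, hz q hq, map_one]
    · rw [← map_pow, hw, map_one]
  exact ⟨N, hN.ne', e⟩

end Vale.Agent.P033
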