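import Vale.Agent.P033.Val

namespace Vale.Agent.P033

open Polynomial Finset

/-- value of the generating polynomial -/
def cv {R : Type*} [CommRing R] (h : ℕ → ℤ) (n : ℕ) (w : R) : R := ∑ j ∈ range n, (h j : R) * w ^ j

lemma map_cv {R S F : Type*} [CommRing R] [CommRing S] [FunLike F R S] [RingHomClass F R S]
    (φ : F) (h : ℕ → ℤ) (n : ℕ) (w : R) : φ (cv h n w) = cv h n (φ w) := by
  simp [cv, map_sum]

/-- the group ring equation -/
def Good (h : ℕ → ℤ) (n : ℕ) : Prop :=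
  (X ^ n - 1 : ℤ[X]) ∣ cv h n X * cv h n (X ^ (n - 1)) - (n : ℤ[X])

lemma Good.exists_eq {h : ℕ → ℤ} {n : ℕ} (hG : Good h n) :
    ∃ g : ℤ[X], ∀ {R : Type} [CommRing R] (w : R),
      cv h n w * cv h n (w ^ (n - 1)) - n = (w ^ n - 1) * aeval w g := by
  obtain ⟨g, hg⟩ := hG
  refine ⟨g, fun w => ?_⟩
  have := congrArg (aeval w) hg
  simpa [map_cv] using this

lemma Good.mul_inv {h : ℕ → ℤ} {n : ℕ} (hG : Good h n) (hn : n ≠ 0) {F : Type} [Field F] {w : F}
    (hw : w ^ n = 1) : cv h n w * cv h n w⁻¹ = n := by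
  obtain ⟨g, hg⟩ := hG.exists_eq
  have h1 := hg w
  have h0 : w ≠ 0 := by
    rintro rfl
    rw [zero_pow hn] at hw
    exact zero_ne_one hw
  have h2 : w ^ (n - 1) = w⁻¹ := by
    apply eq_inv_of_mul_eq_one_left
    rw [← pow_succ, Nat.sub_add_cancel (Nat.one_le_iff_ne_zero.mpr hn), hw]
  rw [h2, hw, sub_self, zero_mul, sub_eq_zero] at h1
  exact h1

lemma Good.ne_zero {h : ℕ → ℤ} {n : ℕ} (hG : Good h n) (hn : n ≠ 0) {F : Type} [Field F]
    [CharZero F] {w : F} (hw : w ^ n = 1) : cv h n w ≠ 0 := by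
  intro h0
  have := hG.mul_inv hn hw
  rw [h0, zero_mul] at this
  exact hn (by exact_mod_cast this.symm)

variable {L : Type} [Field L] [CharZero L] {Γ : Type*} [LinearOrderedCommGroupWithZero Γ]
  (v : Valuation L Γ)

lemma key_root {h : ℕ → ℤ} {n : ℕ} (hG : Good h n) (hn : n ≠ 0) {p : ℕ} (hp : p.Prime)
    (hv : v (p : L) < 1) {w z ρ : L} (hw : w ^ n = 1) (hz : z ^ p = 1) (hρ : cv h n ρ = 0) :
    v (z - 1) < v (w - ρ) := by
  by_contra hc
  push Not at hc
  have hw1 := root_eq v hn hw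
  have hw0 : w ≠ 0 := by
    rintro rfl
    simp at hw1
  set a := ρ / w - 1 with ha
  have hρa : ρ = w * (1 + a) := by rw [ha]; field_simp; ring
  have hva : v a ≤ v (z - 1) := by
    have : a = -((w - ρ) * w⁻¹) := by rw [ha]; field_simp; ring
    rw [this, Valuation.map_neg, map_mul, map_inv₀, hw1, inv_one, mul_one]
    exact hc
  have hl := lam_lt v hp hv hz
  have ha1 : v a < 1 := lt_of_le_of_lt hva hl
  have hap : v a ^ (p - 1) ≤ v (p : L) := (pow_le_pow_left' hva _).trans (lam_le v hp hz)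
  obtain ⟨e, m, hm, rfl⟩ := Nat.exists_eq_pow_mul_and_not_dvd hn p hp.one_lt.ne'
  have h1a : v (1 + a) ≤ 1 := (v.map_one_add_of_lt ha1).le
  have h1 : v (ρ ^ (p ^ e * m) - 1) ≤ v (p : L) ^ e * v a := by
    rw [hρa, mul_pow, hw, one_mul, pow_mul]
    refine (pow_sub_one_le v ?_ m).trans (pow_prime_pow_le v hp ha1.le hap e)
    rw [map_pow]
    exact pow_le_one' h1a _
  obtain ⟨g, hg⟩ := hG.exists_eq
  have h2 := hg ρ
  rw [hρ, zero_mul, zero_sub] at h2
  have hρ1 : v ρ ≤ 1 := by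
    rw [hρa, map_mul, hw1, one_mul]; exact h1a
  have h3 : v ((p ^ e * m : ℕ) : L) ≤ v (p : L) ^ e * v a := by
    rw [← Valuation.map_neg, h2, map_mul]
    exact (mul_le_of_le_one_right' (aeval_le v g hρ1)).trans h1
  have hm1 : v (m : L) = 1 :=
    coprime_eq v hv ((Nat.Prime.coprime_iff_not_dvd hp).mpr hm).symm
  push_cast at h3
  rw [map_mul, map_pow, hm1] at h3
  have hp0 : v (p : L) ^ e ≠ 0 := by
    apply pow_ne_zero
    rw [Valuation.ne_zero_iff]
    exact_mod_cast hp.ne_zero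
  have h4 : (1 : Γ) ≤ v a := le_of_mul_le_mul_left h3 (zero_lt_iff.mpr hp0)
  exact absurd ha1 (not_lt.mpr h4)

lemma key [IsAlgClosed L] {h : ℕ → ℤ} {n : ℕ} (hG : Good h n) (hn : n ≠ 0) {p : ℕ} (hp : p.Prime)
    (hv : v (p : L) < 1) {w z : L} (hw : w ^ n = 1) (hz : z ^ p = 1) :
    P1 v (cv h n (w * z) / cv h n w) := by
  set H : L[X] := cv h n X with hH
  have hev : ∀ x : L, H.eval x = cv h n x := fun x => by
    have := map_cv (evalRingHom x) h n (X : L[X])
    simpa using this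
  have hs : H.Splits := IsAlgClosed.splits H
  have hw0 := hG.ne_zero hn hw
  have e1 := hs.eval_eq_prod_roots w
  have e2 := hs.eval_eq_prod_roots (w * z)
  rw [hev] at e1 e2
  have hlc : H.leadingCoeff ≠ 0 := by
    intro h0
    rw [h0, zero_mul] at e1
    exact hw0 e1
  have e3 : cv h n (w * z) / cv h n w = (H.roots.map fun ρ => (w * z - ρ) / (w - ρ)).prod := by
    rw [e1, e2, mul_div_mul_left _ _ hlc, Multiset.prod_map_div]
  rw [e3]
  apply Multiset.prod_induction (P1 v) _ (fun a b ha hb => ha.mul v hb) (P1.one v)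
  intro x hx
  obtain ⟨ρ, hρ, rfl⟩ := Multiset.mem_map.mp hx
  have hρ0 : cv h n ρ = 0 := by
    rw [← hev]; exact (isRoot_of_mem_roots hρ).eq_zero
  have hk := key_root v hG hn hp hv hw hz hρ0
  have hne : w - ρ ≠ 0 := by
    intro h0
    rw [h0, map_zero] at hk
    exact absurd hk (not_lt.mpr zero_le)
  have : (w * z - ρ) / (w - ρ) - 1 = w * (z - 1) / (w - ρ) := by field_simp; ring
  unfold P1
  rw [this, map_div₀, map_mul, root_eq v hn hw, one_mul, div_lt_one₀]
  · exact hk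
  · exact zero_lt_iff.mpr ((Valuation.ne_zero_iff v).mpr hne)

end Vale.Agent.P033
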