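import Vale.Agent.P033.Delta

namespace Vale.Agent.P033

open Polynomial Finset

/-- folding of a sequence modulo `q` -/
def fold (h : ℕ → ℤ) (q t : ℕ) (g : ℕ) : ℤ := ∑ s ∈ range t, h (q * s + g)

lemma cv_fold {R : Type*} [CommRing R] (h : ℕ → ℤ) (q t : ℕ) {w : R} (hw : w ^ q = 1) :
    cv h (q * t) w = cv (fold h q t) q w := by
  induction t with
  | zero => simp [cv, fold]
  | succ t ih =>
    unfold cv at ih ⊢
    rw [mul_add, mul_one, sum_range_add, ih, ← sum_add_distrib]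
    refine sum_congr rfl fun g _ => ?_
    unfold fold
    rw [sum_range_succ, pow_add, pow_mul, hw, one_pow]
    push_cast
    ring

lemma fold_odd {h : ℕ → ℤ} (hs : ∀ j, Odd (h j)) (q : ℕ) {t : ℕ} (ht : Odd t) (g : ℕ) :
    Odd (fold h q t g) := by
  have : ∀ t : ℕ, Even (fold h q t g - t) := by
    intro t
    induction t with
    | zero => simp [fold]
    | succ t ih =>
      unfold fold at ih ⊢
      rw [sum_range_succ]
      obtain ⟨a, ha⟩ := ih
      obtain ⟨b, hb⟩ := hs (q * t + g)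
      exact ⟨a + b, by push_cast; linear_combination ha + hb⟩
  obtain ⟨a, ha⟩ := this t
  obtain ⟨b, hb⟩ := ht
  exact ⟨a + b, by rw [hb] at ha; push_cast at ha; rw [hb]; linear_combination ha⟩

variable {L : Type} [Field L] [CharZero L] {Γ : Type*} [LinearOrderedCommGroupWithZero Γ]
  (v : Valuation L Γ)

/-- image of the integral group ring of the cyclic group of order four -/
def A4 (i : L) (hi : i ^ 2 = -1) : Subring (ℕ → L) where
  carrier := {f | ∃ a ∈ v.integer, ∃ b ∈ v.integer, ∃ c ∈ v.integer, ∃ d ∈ v.integer,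
    ∀ k, f k = a + b * i ^ k + c * (i ^ k) ^ 2 + d * (i ^ k) ^ 3}
  mul_mem' := by
    rintro f g ⟨a, ha, b, hb, c, hc, d, hd, hf⟩ ⟨a', ha', b', hb', c', hc', d', hd', hg⟩
    refine ⟨a * a' + b * d' + c * c' + d * b', ?_, a * b' + b * a' + c * d' + d * c', ?_,
      a * c' + b * b' + c * a' + d * d', ?_, a * d' + b * c' + c * b' + d * a', ?_, fun k => ?_⟩
    · exact add_mem (add_mem (add_mem (mul_mem ha ha') (mul_mem hb hd')) (mul_mem hc hc'))
        (mul_mem hd hb')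
    · exact add_mem (add_mem (add_mem (mul_mem ha hb') (mul_mem hb ha')) (mul_mem hc hd'))
        (mul_mem hd hc')
    · exact add_mem (add_mem (add_mem (mul_mem ha hc') (mul_mem hb hb')) (mul_mem hc ha'))
        (mul_mem hd hd')
    · exact add_mem (add_mem (add_mem (mul_mem ha hd') (mul_mem hb hc')) (mul_mem hc hb'))
        (mul_mem hd ha')
    · have h4 : (i ^ k) ^ 4 = 1 := by
        rw [← pow_mul, mul_comm, pow_mul, show i ^ 4 = (i ^ 2) ^ 2 by ring, hi]; simp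
      rw [Pi.mul_apply, hf, hg]
      generalize i ^ k = e at h4 ⊢
      linear_combination ((b * d' + c * c' + d * b') + (c * d' + d * c') * e + d * d' * e ^ 2) * h4
  one_mem' := ⟨1, one_mem _, 0, zero_mem _, 0, zero_mem _, 0, zero_mem _, fun k => by simp⟩
  add_mem' := by
    rintro f g ⟨a, ha, b, hb, c, hc, d, hd, hf⟩ ⟨a', ha', b', hb', c', hc', d', hd', hg⟩
    refine ⟨a + a', add_mem ha ha', b + b', add_mem hb hb', c + c', add_mem hc hc', d + d',
      add_mem hd hd', fun k => ?_⟩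
    rw [Pi.add_apply, hf, hg]; ring
  zero_mem' := ⟨0, zero_mem _, 0, zero_mem _, 0, zero_mem _, 0, zero_mem _, fun k => by simp⟩
  neg_mem' := by
    rintro f ⟨a, ha, b, hb, c, hc, d, hd, hf⟩
    refine ⟨-a, neg_mem ha, -b, neg_mem hb, -c, neg_mem hc, -d, neg_mem hd, fun k => ?_⟩
    rw [Pi.neg_apply, hf]; ring

omit [CharZero L] in
lemma A4_gen {i : L} (hi : i ^ 2 = -1) {c : L} (hc : v c ≤ 1) :
    (fun k => i ^ k * c) ∈ A4 v i hi :=
  ⟨0, zero_mem _, c, hc, 0, zero_mem _, 0, zero_mem _, fun k => by ring⟩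

omit [CharZero L] in
lemma A4_const {i : L} (hi : i ^ 2 = -1) {c : L} (hc : v c ≤ 1) :
    (fun _ => c) ∈ A4 v i hi :=
  ⟨c, hc, 0, zero_mem _, 0, zero_mem _, 0, zero_mem _, fun k => by ring⟩

omit [CharZero L] in
lemma A4_cv {i : L} (hi : i ^ 2 = -1) (h : ℕ → ℤ) (n : ℕ) {f : ℕ → L} (hf : f ∈ A4 v i hi) :
    (fun k => cv h n (f k)) ∈ A4 v i hi := by
  have : (fun k => cv h n (f k)) = cv h n f := by
    funext k
    exact (map_cv (Pi.evalRingHom (fun _ : ℕ => L) k) h n f).symm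
  rw [this]
  exact sum_mem fun j _ => mul_mem (intCast_mem _ _) (pow_mem hf _)

omit [CharZero L] in
lemma i_pow_four {i : L} (hi : i ^ 2 = -1) (k : ℕ) : (i ^ k) ^ 4 = 1 := by
  rw [← pow_mul, mul_comm, pow_mul, show i ^ 4 = (i ^ 2) ^ 2 by ring, hi]; simp

omit [CharZero L] in
lemma P1_four (hv : v (2 : L) < 1) {e : L} (he : e ^ 4 = 1) : P1 v e := by
  have h2 : v ((2 : ℕ) : L) < 1 := by simpa using hv
  have h1 : P1 v (e ^ 2) := lam_lt v Nat.prime_two h2 (z := e ^ 2) (by rw [← pow_mul, he])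
  have h3 : v e = 1 := root_eq v (by norm_num) he
  have h4 : (e - 1) ^ 2 = (e ^ 2 - 1) + 2 * (1 - e) := by ring
  have h5 : v ((e - 1) ^ 2) < 1 := by
    rw [h4]
    apply v.map_add_lt h1
    rw [map_mul]
    exact lt_of_le_of_lt (mul_le_of_le_one_right' (v.map_sub_le (by simp) h3.le)) hv
  rw [map_pow] at h5
  by_contra h6
  unfold P1 at h6
  push Not at h6
  exact absurd h5 (not_lt.mpr (one_le_pow_of_one_le' h6 _))

omit [CharZero L] in
lemma A4_cong {i : L} (hi : i ^ 2 = -1) (hv : v (2 : L) < 1) {f : ℕ → L} (hf : f ∈ A4 v i hi)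
    (k : ℕ) : v (f k - f 0) < 1 := by
  obtain ⟨a, ha, b, hb, c, hc, d, hd, hf⟩ := hf
  have hP := P1_four v hv (i_pow_four hi k)
  have e : f k - f 0 = b * (i ^ k - 1) + c * ((i ^ k) ^ 2 - 1) + d * ((i ^ k) ^ 3 - 1) := by
    rw [hf, hf]; ring
  rw [e]
  refine v.map_add_lt (v.map_add_lt ?_ ?_) ?_ <;> rw [map_mul]
  · exact lt_of_le_of_lt (mul_le_of_le_one_left' hb) hP
  · exact lt_of_le_of_lt (mul_le_of_le_one_left' hc) (hP.pow v 2)
  · exact lt_of_le_of_lt (mul_le_of_le_one_left' hd) (hP.pow v 3)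

omit [CharZero L] in
lemma A4_sum {i : L} (hi : i ^ 2 = -1) {f : ℕ → L} (hf : f ∈ A4 v i hi) :
    ∃ a : L, v a ≤ 1 ∧ f 0 + f 1 + f 2 + f 3 = 4 * a := by
  obtain ⟨a, ha, b, hb, c, hc, d, hd, hf⟩ := hf
  refine ⟨a, ha, ?_⟩
  rw [hf, hf, hf, hf]
  linear_combination (b * (i + 1) + c * (i ^ 4 + 1) + d * (i ^ 7 - i ^ 5 + i ^ 4 + i ^ 3 - i ^ 2 + 1)) * hi

omit [CharZero L] in
lemma ne_one_of_nonempty {u : ℕ} (hu : Odd u) {z : ℕ → L}
    (hz : ∀ p ∈ u.primeFactors, IsPrimitiveRoot (z p) p) {w : L} (hw : w ^ 4 = 1) {S : Finset ℕ}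
    (hS : S ⊆ u.primeFactors) (hne : S.Nonempty) : w * ∏ q ∈ S, z q ≠ 1 := by
  intro h1
  obtain ⟨p, hp⟩ := hne
  have hpp := Nat.prime_of_mem_primeFactors (hS hp)
  have h2 := congrArg (· ^ (4 * ∏ q ∈ S.erase p, q)) h1
  simp only [one_pow] at h2
  rw [← mul_prod_erase S z hp, mul_pow, mul_pow, pow_mul w, hw, one_pow, one_mul, ← prod_pow,
    prod_eq_one (f := fun x => z x ^ (4 * ∏ q ∈ S.erase p, q)), mul_one] at h2
  · have h3 := (hz p (hS hp)).dvd_of_pow_eq_one _ h2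
    rcases (Nat.Prime.dvd_mul hpp).mp h3 with h4 | h4
    · have h5 : p ∣ 2 := hpp.dvd_of_dvd_pow (n := 2) (by simpa using h4)
      have h6 : p = 2 := (Nat.prime_dvd_prime_iff_eq hpp Nat.prime_two).mp h5
      have h7 := Nat.dvd_of_mem_primeFactors (hS hp)
      rw [h6] at h7
      exact (Nat.not_even_iff_odd.mpr hu) (even_iff_two_dvd.mpr h7)
    · obtain ⟨q, hq, h5⟩ := (Prime.dvd_finsetProd_iff hpp.prime _).mp h4
      have hq' := mem_erase.mp hq
      exact hq'.1 ((Nat.prime_dvd_prime_iff_eq hpp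
        (Nat.prime_of_mem_primeFactors (hS hq'.2))).mp h5).symm
  · intro q hq
    obtain ⟨c, hc⟩ : q ∣ 4 * ∏ q ∈ S.erase p, q := (dvd_prod_of_mem _ hq).mul_left _
    rw [hc, pow_mul, (hz q (hS (mem_erase.mp hq).2)).pow_eq_one, one_pow]

lemma exists_W {i : L} (hi : i ^ 2 = -1) {h : ℕ → ℤ} (hs : ∀ j, Odd (h j)) {u : ℕ} (hu : Odd u)
    (hG : Good h (4 * u ^ 2)) (hvu : v (u : L) = 1) {z : ℕ → L}
    (hz : ∀ p ∈ u.primeFactors, IsPrimitiveRoot (z p) p) :
    ∃ W ∈ A4 v i hi, ∀ k, ah h (4 * u ^ 2) (i ^ k)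
      = Delta h (4 * u ^ 2) u.primeFactors z (i ^ k) * W k := by
  have hu0 : u ≠ 0 := by rintro rfl; simp at hu
  have hz' : ∀ p ∈ u.primeFactors, z p ^ p = 1 := fun p hp => (hz p hp).pow_eq_one
  have hik : ∀ k, (i ^ k) ^ (4 * u ^ 2) = 1 := fun k => by rw [pow_mul, i_pow_four hi, one_pow]
  refine ⟨∏ S ∈ u.primeFactors.powerset.erase ∅,
    fun k => ah h (4 * u ^ 2) (i ^ k * ∏ q ∈ S, z q) ^ (-(-1 : ℤ) ^ S.card), ?_, fun k => ?_⟩
  · refine prod_mem fun S hS => ?_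
    have hS1 : S ⊆ u.primeFactors := mem_powerset.mp (mem_erase.mp hS).2
    have hS2 : S.Nonempty := nonempty_iff_ne_empty.mpr (mem_erase.mp hS).1
    have hp := fun k => prod_pow_eq_one hz' (hik k) hS1
    have hn := fun k => ne_one_of_nonempty hu hz (i_pow_four hi k) hS1 hS2
    have hc : v (∏ q ∈ S, z q) ≤ 1 := by
      have := root_eq v (by positivity) (hp 0)
      simpa using this.le
    rcases neg_one_pow_eq_or ℤ S.card with e | e
    · have e2 : (fun k => ah h (4 * u ^ 2) (i ^ k * ∏ q ∈ S, z q) ^ (-(-1 : ℤ) ^ S.card))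
          = (fun k => cv (dd h) (4 * u ^ 2) (((fun k => i ^ k * ∏ q ∈ S, z q) ^ (4 * u ^ 2 - 1)) k))
            * fun _ => ((u : L) ^ 2)⁻¹ := by
        funext k
        have h1 := ah_mul hu0 hG (hp k)
        have h2 : (i ^ k * ∏ q ∈ S, z q) ^ (4 * u ^ 2 - 1) = (i ^ k * ∏ q ∈ S, z q)⁻¹ := by
          apply eq_inv_of_mul_eq_one_left
          rw [← pow_succ, Nat.sub_add_cancel (Nat.one_le_iff_ne_zero.mpr (by positivity)), hp k]
        rw [e, zpow_neg, zpow_one, Pi.mul_apply, Pi.pow_apply, h2,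
          ← ah_eq hs (by rw [inv_pow, hp k, inv_one]) (by rw [Ne, inv_eq_one]; exact hn k)]
        have hu2 : (u : L) ^ 2 ≠ 0 := pow_ne_zero _ (by exact_mod_cast hu0)
        symm
        apply eq_inv_of_mul_eq_one_right
        rw [← mul_assoc, h1, mul_inv_cancel₀ hu2]
      rw [e2]
      refine mul_mem (A4_cv v hi _ _ (pow_mem (A4_gen v hi hc) _)) (A4_const v hi ?_)
      rw [map_inv₀, map_pow, hvu, one_pow, inv_one]
    · have e2 : (fun k => ah h (4 * u ^ 2) (i ^ k * ∏ q ∈ S, z q) ^ (-(-1 : ℤ) ^ S.card))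
          = (fun k => cv (dd h) (4 * u ^ 2) ((fun k => i ^ k * ∏ q ∈ S, z q) k)) := by
        funext k
        rw [e, neg_neg, zpow_one, ah_eq hs (hp k) (hn k)]
      rw [e2]
      exact A4_cv v hi _ _ (A4_gen v hi hc)
  · unfold Delta
    rw [← mul_prod_erase _ _ (empty_mem_powerset u.primeFactors), Finset.prod_apply, mul_assoc,
      ← prod_mul_distrib, prod_eq_one (s := u.primeFactors.powerset.erase ∅)]
    · simp
    · intro S hS
      have hS1 : S ⊆ u.primeFactors := mem_powerset.mp (mem_erase.mp hS).2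
      have h1 := ah_val v hs hu0 hG hvu (prod_pow_eq_one hz' (hik k) hS1)
      have h0 : ah h (4 * u ^ 2) (i ^ k * ∏ q ∈ S, z q) ≠ 0 := by
        intro h0
        rw [h0, map_zero] at h1
        exact zero_ne_one h1
      rw [← zpow_add₀ h0, add_neg_cancel, zpow_zero]

omit [CharZero L] in
lemma cv_cong (h : ℕ → ℤ) (n : ℕ) {e : L} (he : P1 v e) : v (cv h n e - cv h n 1) < 1 := by
  unfold cv
  rw [← sum_sub_distrib]
  refine v.map_sum_lt one_ne_zero fun j _ => ?_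
  rw [← mul_sub, map_mul, one_pow]
  exact lt_of_le_of_lt (mul_le_of_le_one_left' (int_le v _)) (he.pow v j)

lemma ah_cong (hv : v (2 : L) < 1) {h : ℕ → ℤ} (hs : ∀ j, Odd (h j)) (t : ℕ) {e : L}
    (he : e ^ 4 = 1) : v (ah h (4 * t) e - ah h (4 * t) 1) < 1 := by
  by_cases h1 : e = 1
  · subst h1; simp
  rw [ah_eq hs (by rw [pow_mul, he, one_pow]) h1, ah_one hs]
  have : cv (dd h) (4 * t) e - (2 * t + cv (dd h) (4 * t) 1)
      = (cv (dd h) (4 * t) e - cv (dd h) (4 * t) 1) - 2 * t := by ring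
  rw [this]
  apply v.map_sub_lt (cv_cong v _ _ (P1_four v hv he))
  rw [map_mul]
  exact lt_of_le_of_lt (mul_le_of_le_one_right' (nat_le v t)) hv

lemma ah_sum {i : L} (hi : i ^ 2 = -1) (h : ℕ → ℤ) (t : ℕ) :
    ah h (4 * t) (i ^ 0) + ah h (4 * t) (i ^ 1) + ah h (4 * t) (i ^ 2) + ah h (4 * t) (i ^ 3)
      = 2 * fold h 4 t 0 := by
  unfold ah
  rw [cv_fold h 4 t (i_pow_four hi 0), cv_fold h 4 t (i_pow_four hi 1),
    cv_fold h 4 t (i_pow_four hi 2), cv_fold h 4 t (i_pow_four hi 3)]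
  simp only [cv, sum_range_succ, sum_range_zero]
  linear_combination ((fold h 4 t 1 : L) * (i + 1) + (fold h 4 t 2 : L) * (i ^ 4 + 1)
    + (fold h 4 t 3 : L) * (i ^ 7 - i ^ 5 + i ^ 4 + i ^ 3 - i ^ 2 + 1)) / 2 * hi

lemma odd_case_L [IsAlgClosed L] {i : L} (hi : i ^ 2 = -1) {h : ℕ → ℤ} (hs : ∀ j, Odd (h j))
    {u : ℕ} (hu : Odd u) (hG : Good h (4 * u ^ 2)) {z : ℕ → L}
    (hz : ∀ p ∈ u.primeFactors, IsPrimitiveRoot (z p) p) {p : ℕ} (hp : p ∈ u.primeFactors)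
    (hroot : ∀ k, ∃ N : ℕ, N ≠ 0 ∧ Delta h (4 * u ^ 2) u.primeFactors z (i ^ k) ^ N = 1) :
    False := by
  have hu0 : u ≠ 0 := by rintro rfl; simp at hu
  have hpp := Nat.prime_of_mem_primeFactors hp
  have hz' : ∀ p ∈ u.primeFactors, z p ^ p = 1 := fun p hp => (hz p hp).pow_eq_one
  have hik : ∀ k, (i ^ k) ^ (4 * u ^ 2) = 1 := fun k => by rw [pow_mul, i_pow_four hi, one_pow]
  obtain ⟨A, hA⟩ := exists_val L hpp
  obtain ⟨B, hB⟩ := exists_val L Nat.prime_two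
  have hB2 : B.valuation (2 : L) < 1 := by simpa using hB
  have hvu : B.valuation (u : L) = 1 := coprime_eq _ hB (Nat.coprime_two_right.mpr hu)
  have hpo : Odd p := hu.of_dvd_nat (Nat.dvd_of_mem_primeFactors hp)
  set ξ : ℕ → L := fun k => Delta h (4 * u ^ 2) u.primeFactors z (i ^ k) with hξ
  have hodd : ∀ k, ∃ e : ℕ, ξ k ^ p ^ e = 1 := fun k => by
    obtain ⟨N, hN, e⟩ := hroot k
    exact pow_prime_pow_eq_one A.valuation hpp hA hN (Delta_P1 _ hu0 hG hz' (hik k) hp hA) e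
  obtain ⟨W, hW, hWe⟩ := exists_W B.valuation hi hs hu hG hvu hz
  have hξv : ∀ k, B.valuation (ξ k) = 1 := fun k => Delta_val _ hs hu0 hG hz' (hik k)
  have hW0 : B.valuation (W 0) = 1 := by
    have h1 := ah_val B.valuation hs hu0 hG hvu (hik 0)
    rw [hWe 0, map_mul] at h1
    have h2 := hξv 0
    simp only [hξ] at h2
    rwa [h2, one_mul] at h1
  have hξ0 : ξ 0 ≠ 0 := by
    intro h0
    have := hξv 0
    rw [h0, map_zero] at this
    exact zero_ne_one this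
  have heq : ∀ k, ξ k = ξ 0 := fun k => by
    have h1 := ah_cong B.valuation hB2 hs (u ^ 2) (i_pow_four hi k)
    have h2 := A4_cong B.valuation hi hB2 hW k
    have h3 : (ξ k - ξ 0) * W 0 = (ah h (4 * u ^ 2) (i ^ k) - ah h (4 * u ^ 2) 1)
        - ξ k * (W k - W 0) := by
      have := hWe 0
      rw [pow_zero] at this
      rw [hWe k, this]
      simp only [hξ, pow_zero]
      ring
    have h4 : B.valuation ((ξ k - ξ 0) * W 0) < 1 := by
      rw [h3]
      apply B.valuation.map_sub_lt h1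
      rw [map_mul, hξv k, one_mul]
      exact h2
    rw [map_mul, hW0, mul_one] at h4
    have h5 : P1 B.valuation (ξ k / ξ 0) := by
      have : ξ k / ξ 0 - 1 = (ξ k - ξ 0) * (ξ 0)⁻¹ := by field_simp
      unfold P1
      rw [this, map_mul, map_inv₀, hξv 0, inv_one, mul_one]
      exact h4
    obtain ⟨e, he⟩ := hodd k
    obtain ⟨e', he'⟩ := hodd 0
    have h6 : (ξ k / ξ 0) ^ p ^ (e + e') = 1 := by
      rw [div_pow, pow_add, pow_mul, he, one_pow, mul_comm, pow_mul, he', one_pow, div_one]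
    have h7 := eq_one_of_P1 B.valuation
      (coprime_eq _ hB (Nat.coprime_two_right.mpr hpo.pow)) h5 h6
    exact (div_eq_one_iff_eq hξ0).mp h7
  obtain ⟨a, ha, hsum⟩ := A4_sum B.valuation hi hW
  have h8 := ah_sum hi h (u ^ 2)
  rw [hWe 0, hWe 1, hWe 2, hWe 3] at h8
  have e1 := heq 1
  have e2 := heq 2
  have e3 := heq 3
  simp only [hξ] at e1 e2 e3
  rw [e1, e2, e3] at h8
  have h9 : (fold h 4 (u ^ 2) 0 : L) = 2 * (ξ 0 * a) := by
    simp only [hξ]
    linear_combination (Delta h (4 * u ^ 2) u.primeFactors z (i ^ 0)) / 2 * hsum - h8 / 2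
  obtain ⟨b, hb⟩ := fold_odd hs 4 (hu.pow (n := 2)) 0
  have h10 : (1 : L) = 2 * (ξ 0 * a - b) := by
    rw [hb] at h9
    push_cast at h9
    linear_combination h9
  have h11 : B.valuation (2 * (ξ 0 * a - b)) < 1 := by
    rw [map_mul]
    refine lt_of_le_of_lt (mul_le_of_le_one_right' (B.valuation.map_sub_le ?_ (int_le _ b))) hB2
    rw [map_mul, hξv 0, one_mul]
    exact ha
  rw [← h10, map_one] at h11
  exact lt_irrefl _ h11

theorem odd_case {h : ℕ → ℤ} (hs : ∀ j, Odd (h j)) {u : ℕ} (hu : Odd u)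
    (hG : Good h (4 * u ^ 2)) : u = 1 := by
  by_contra hu1
  have hu0 : u ≠ 0 := by rintro rfl; simp at hu
  obtain ⟨p, hpp, hpu⟩ := Nat.exists_prime_and_dvd hu1
  have hp : p ∈ u.primeFactors := Nat.mem_primeFactors.mpr ⟨hpp, hpu, hu0⟩
  have hn : 4 * u ≠ 0 := by positivity
  have : NeZero (4 * u) := ⟨hn⟩
  let K := CyclotomicField (4 * u) ℚ
  have : IsCyclotomicExtension {4 * u} ℚ K := CyclotomicField.isCyclotomicExtension (4 * u) ℚ
  obtain ⟨ζ, hζ⟩ := IsCyclotomicExtension.exists_isPrimitiveRoot ℚ K (S := {4 * u}) (n := 4 * u)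
    rfl hn
  have hi4 : IsPrimitiveRoot (ζ ^ u) 4 := hζ.pow (Nat.pos_of_ne_zero hn) (mul_comm _ _)
  have hi : (ζ ^ u) ^ 2 = -1 :=
    (hi4.pow (by norm_num) (show 4 = 2 * 2 by norm_num)).eq_neg_one_of_two_right
  have hz : ∀ q ∈ u.primeFactors, IsPrimitiveRoot (ζ ^ (4 * u / q)) q := fun q hq =>
    hζ.pow (Nat.pos_of_ne_zero hn)
      (Nat.div_mul_cancel ((Nat.dvd_of_mem_primeFactors hq).mul_left 4)).symm
  let φ := algebraMap K (AlgebraicClosure K)
  refine odd_case_L (L := AlgebraicClosure K) (i := φ (ζ ^ u)) (z := fun q => φ (ζ ^ (4 * u / q)))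
    (by rw [← map_pow, hi]; simp) hs hu hG
    (fun q hq => (hz q hq).map_of_injective φ.injective) hp fun k => ?_
  obtain ⟨N, hN, e⟩ := Delta_root hs hu0 hG (fun q hq => (hz q hq).pow_eq_one)
    (w := (ζ ^ u) ^ k) (by rw [pow_mul, i_pow_four hi, one_pow]) hp
  refine ⟨N, hN, ?_⟩
  rw [← map_pow, ← map_Delta φ h _ _ (fun q => ζ ^ (4 * u / q)), ← map_pow, e, map_one]

end Vale.Agent.P033
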