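import Vale.Agent.P033.Odd

namespace Vale.Agent.P033

open Polynomial Finset

variable {L : Type} [Field L] [CharZero L] {Γ : Type*} [LinearOrderedCommGroupWithZero Γ]
  (v : Valuation L Γ)

omit [CharZero L] in
lemma lam_two (hv : v (2 : L) < 1) {k : ℕ} {ζ : L} (hζ : ζ ^ 2 ^ k = -1) :
    v (ζ - 1) < 1 ∧ v (ζ - 1) ^ 2 ^ k = v (2 : L) := by
  have hζ1 : v ζ = 1 := root_eq v (n := 2 ^ k * 2) (by positivity) (by rw [pow_mul, hζ]; simp)
  have h1 : v (ζ - 1) ≤ 1 := v.map_sub_le hζ1.le (by simp)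
  obtain ⟨r, hr, e⟩ := exists_binom v Nat.prime_two h1 k
  rw [add_sub_cancel, hζ] at e
  have e2 : (ζ - 1) ^ 2 ^ k = -(2 * (1 + (ζ - 1) * r)) := by
    push_cast at e
    linear_combination -e
  have h2 : v (ζ - 1) ^ 2 ^ k = v (2 : L) * v (1 + (ζ - 1) * r) := by
    rw [← map_pow, e2, Valuation.map_neg, map_mul]
  have h3 : v ((ζ - 1) * r) ≤ v (ζ - 1) := by
    rw [map_mul]; exact mul_le_of_le_one_right' hr
  have h4 : v (ζ - 1) < 1 := by
    by_contra h5
    push Not at h5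
    have h6 : v (1 + (ζ - 1) * r) ≤ 1 := v.map_add_le (by simp) (h3.trans h1)
    have h7 : v (ζ - 1) ^ 2 ^ k < 1 := by
      rw [h2]; exact lt_of_le_of_lt (mul_le_of_le_one_right' h6) hv
    exact absurd h7 (not_lt.mpr (one_le_pow_of_one_le' h5 _))
  refine ⟨h4, ?_⟩
  rw [h2, v.map_one_add_of_lt (lt_of_le_of_lt h3 h4), mul_one]

lemma coeff_cv (d : ℕ → ℤ) (m j : ℕ) :
    (cv d m (X : ℤ[X])).coeff j = if j < m then d j else 0 := by
  unfold cv
  rw [finsetSum_coeff]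
  simp only [← C_eq_intCast, Int.cast_id, coeff_C_mul_X_pow]
  rw [sum_ite_eq]
  simp

lemma even_of_val (hv : v (2 : L) < 1) {k : ℕ} {ζ : L} (hζ : ζ ^ 2 ^ k = -1) (d : ℕ → ℤ)
    (hd : v (cv d (2 ^ k) ζ) ≤ v (2 : L)) : ∀ j < 2 ^ k, Even (d j) := by
  obtain ⟨hl1, hl2⟩ := lam_two v hv hζ
  set A : ℤ[X] := cv d (2 ^ k) X with hA
  set B : ℤ[X] := taylor 1 A with hB
  have hdeg : B.natDegree < 2 ^ k := by
    rw [hB, natDegree_taylor]
    have : A.natDegree ≤ 2 ^ k - 1 := by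
      rw [natDegree_le_iff_coeff_eq_zero]
      intro N hN
      rw [hA, coeff_cv, if_neg (by omega)]
    have h0 : 0 < 2 ^ k := by positivity
    omega
  have hev : aeval (ζ - 1) B = cv d (2 ^ k) ζ := by
    rw [hB, taylor_apply, aeval_comp]
    simp [hA, map_cv]
  have hall : ∀ j, Even (B.coeff j) := by
    by_contra hc
    push Not at hc
    classical
    set j := Nat.find hc with hj
    have hj1 : ¬ Even (B.coeff j) := Nat.find_spec hc
    have hj2 : ∀ i < j, Even (B.coeff i) := fun i hi => not_not.mp (Nat.find_min hc hi)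
    have hjd : j ≤ B.natDegree := by
      apply le_natDegree_of_ne_zero
      intro h0
      rw [h0] at hj1
      exact hj1 Even.zero
    have h20 : v (2 : L) ≠ 0 := by
      rw [Valuation.ne_zero_iff]; exact two_ne_zero
    have hl0 : 0 < v (ζ - 1) := by
      rw [zero_lt_iff]
      intro h0
      rw [h0, zero_pow (by positivity)] at hl2
      exact h20 hl2.symm
    have hlt : v (2 : L) < v (ζ - 1) ^ j := by
      rw [← hl2]
      exact pow_lt_pow_right_of_lt_one₀ hl0 hl1 (by omega)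
    have hodd : v ((B.coeff j : ℤ) : L) = 1 := by
      obtain ⟨t, ht⟩ := Int.not_even_iff_odd.mp hj1
      rw [ht]
      push_cast
      rw [add_comm]
      apply v.map_one_add_of_lt
      rw [map_mul]
      exact lt_of_le_of_lt (mul_le_of_le_one_right' (int_le v t)) hv
    have hvj : v (B.coeff j • (ζ - 1) ^ j) = v (ζ - 1) ^ j := by
      rw [zsmul_eq_mul, map_mul, map_pow, hodd, one_mul]
    have hs : v (aeval (ζ - 1) B) = v (ζ - 1) ^ j := by
      rw [aeval_eq_sum_range, ← hvj]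
      apply v.map_sum_eq_of_lt (mem_range.mpr (by omega))
      · intro i hi
        have hij : i ≠ j := by simpa using (mem_sdiff.mp hi).2
        rw [hvj, zsmul_eq_mul, map_mul, map_pow]
        rcases lt_or_gt_of_ne hij with h | h
        · obtain ⟨t, ht⟩ := hj2 i h
          refine lt_of_le_of_lt ?_ hlt
          refine (mul_le_of_le_one_right' (pow_le_one' hl1.le _)).trans ?_
          rw [ht, ← two_mul]
          push_cast
          rw [map_mul]
          exact mul_le_of_le_one_right' (int_le v t)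
        · exact lt_of_le_of_lt (mul_le_of_le_one_left' (int_le v _))
            (pow_lt_pow_right_of_lt_one₀ hl0 hl1 h)
    rw [hev] at hs
    rw [hs] at hd
    exact absurd hlt (not_lt.mpr hd)
  obtain ⟨B', hB'⟩ := (C_dvd_iff_dvd_coeff (2 : ℤ) B).mpr fun i => (hall i).two_dvd
  have hAB : A = C 2 * taylor (-1) B' := by
    have : A = taylor (-1) B := by rw [hB, taylor_taylor]; simp
    rw [this, hB', ← smul_eq_C_mul, ← smul_eq_C_mul, map_smul]
  intro j hj
  have h1 := congrArg (fun P : ℤ[X] => P.coeff j) hAB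
  simp only [hA, coeff_cv, if_pos hj, coeff_C_mul] at h1
  rw [h1]
  exact even_two_mul _

lemma even_of_prod (hv : v (2 : L) < 1) {k : ℕ} {ζ : L} (hζ : ζ ^ 2 ^ k = -1) (d : ℕ → ℤ)
    {t : L} (ht : v t ≤ 1) (hd : cv d (2 ^ k) ζ * cv d (2 ^ k) ζ⁻¹ = 4 * t) :
    ∀ j < 2 ^ k, Even (d j) := by
  by_cases h1 : v (cv d (2 ^ k) ζ) ≤ v (2 : L)
  · exact even_of_val v hv hζ d h1
  by_cases h2 : v (cv d (2 ^ k) ζ⁻¹) ≤ v (2 : L)
  · exact even_of_val v hv (ζ := ζ⁻¹) (by rw [inv_pow, hζ]; simp) d h2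
  exfalso
  push Not at h1 h2
  have h3 : v (2 : L) * v (2 : L) < v (cv d (2 ^ k) ζ) * v (cv d (2 ^ k) ζ⁻¹) :=
    mul_lt_mul'' h1 h2 zero_le zero_le
  rw [← map_mul v 2 2, ← map_mul, hd, map_mul v 4 t, show (2 : L) * 2 = 4 by norm_num] at h3
  exact absurd h3 (not_lt.mpr (mul_le_of_le_one_right' ht))

lemma cv_half {R : Type*} [CommRing R] {d : ℕ → ℤ} {m : ℕ} (hd : ∀ j < m, Even (d j)) (w : R) :
    cv d m w = 2 * cv (fun j => d j / 2) m w := by
  unfold cv
  rw [mul_sum]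
  refine sum_congr rfl fun j hj => ?_
  obtain ⟨t, ht⟩ := hd j (mem_range.mp hj)
  have : d j / 2 = t := by omega
  simp only [this]
  rw [ht]; push_cast; ring

lemma four_dvd (hv : v (2 : L) < 1) {k : ℕ} {ζ : L} (hζ : ζ ^ 2 ^ k = -1) (d : ℕ → ℤ)
    {t : L} (ht : v t ≤ 1) (hd : cv d (2 ^ k) ζ * cv d (2 ^ k) ζ⁻¹ = 16 * t) :
    ∀ j < 2 ^ k, 4 ∣ d j := by
  have h4 : v (4 * t) ≤ 1 := by
    rw [map_mul]
    exact mul_le_one' (by simpa using nat_le v 4) ht
  have h1 := even_of_prod v hv hζ d h4 (by rw [hd]; ring)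
  rw [cv_half h1, cv_half h1] at hd
  have h2 := even_of_prod v hv hζ (fun j => d j / 2) ht (by linear_combination hd / 4)
  intro j hj
  obtain ⟨a, ha⟩ := h1 j hj
  obtain ⟨b, hb⟩ := h2 j hj
  omega

lemma parseval {N : ℕ} {ζ : L} (hζ : IsPrimitiveRoot ζ N) (x : ℕ → ℤ) :
    ∑ t ∈ range N, cv x N (ζ ^ t) * cv x N (ζ ^ t)⁻¹ = N * ∑ j ∈ range N, (x j : L) ^ 2 := by
  rcases Nat.eq_zero_or_pos N with rfl | hN
  · simp
  have h0 : ζ ≠ 0 := hζ.ne_zero hN.ne'
  unfold cv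
  simp only [sum_mul_sum]
  rw [sum_comm, mul_sum]
  refine sum_congr rfl fun j hj => ?_
  rw [sum_comm, sum_eq_single j]
  · have : ∀ t, (x j : L) * (ζ ^ t) ^ j * (x j * (ζ ^ t)⁻¹ ^ j) = (x j : L) ^ 2 := fun t => by
      have : (ζ ^ t) ^ j ≠ 0 := pow_ne_zero _ (pow_ne_zero _ h0)
      rw [inv_pow]
      field_simp
    simp only [this]
    simp
  · intro l hl hlj
    have e : ∀ t, (x j : L) * (ζ ^ t) ^ j * (x l * (ζ ^ t)⁻¹ ^ l)
        = (x j * x l) * (ζ ^ j / ζ ^ l) ^ t := fun t => by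
      rw [div_pow, inv_pow, ← pow_mul, ← pow_mul, ← pow_mul, ← pow_mul, mul_comm t j, mul_comm t l]
      ring
    simp only [e]
    rw [← mul_sum]
    have h1 : ζ ^ j / ζ ^ l ≠ 1 := by
      intro h
      rw [div_eq_one_iff_eq (pow_ne_zero _ h0)] at h
      exact hlj (hζ.pow_inj (mem_range.mp hj) (mem_range.mp hl) h).symm
    have h2 : (ζ ^ j / ζ ^ l) ^ N = 1 := by
      rw [div_pow, ← pow_mul, ← pow_mul, mul_comm j, mul_comm l, pow_mul, pow_mul, hζ.pow_eq_one]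
      simp
    have := geom_sum_mul (ζ ^ j / ζ ^ l) N
    rw [h2, sub_self] at this
    rw [(mul_eq_zero.mp this).resolve_right (sub_ne_zero.mpr h1), mul_zero]
  · intro h; exact absurd hj h

lemma sum_sq_mod {x : ℕ → ℤ} (hx : ∀ j, Odd (x j)) (N : ℕ) :
    (8 : ℤ) ∣ ∑ j ∈ range N, x j ^ 2 - N := by
  induction N with
  | zero => simp
  | succ N ih =>
    rw [sum_range_succ]
    have h1 : (8 : ℤ) ∣ x N ^ 2 - 1 := by
      obtain ⟨t, ht⟩ := hx N
      obtain ⟨s, hs⟩ := Int.even_mul_succ_self t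
      exact ⟨s, by rw [ht]; linear_combination 4 * hs⟩
    have : ∑ j ∈ range N, x j ^ 2 + x N ^ 2 - ((N + 1 : ℕ) : ℤ)
        = (∑ j ∈ range N, x j ^ 2 - N) + (x N ^ 2 - 1) := by push_cast; ring
    rw [this]
    exact dvd_add ih h1

lemma descent {u : ℕ} (hu : Odd u) (s : ℕ) : ∀ (k : ℕ) (x : ℕ → ℤ), s + 3 ≤ k → (∀ j, Odd (x j)) →
    (∀ w : ℂ, w ^ 2 ^ k = 1 → cv x (2 ^ k) w * cv x (2 ^ k) w⁻¹ = 4 ^ (s + 1) * (u : ℂ) ^ 2) →
    False := by
  induction s with
  | zero =>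
    intro k x hk hx hw
    have hN : 2 ^ k ≠ 0 := by positivity
    obtain ⟨ζ, hζ⟩ : ∃ ζ : ℂ, IsPrimitiveRoot ζ (2 ^ k) := ⟨_, Complex.isPrimitiveRoot_exp (2 ^ k) hN⟩
    have h1 := parseval hζ x
    rw [sum_congr rfl fun t _ => hw _ (by rw [← pow_mul, mul_comm, pow_mul, hζ.pow_eq_one, one_pow]),
      sum_const, card_range, nsmul_eq_mul] at h1
    have h2 := mul_left_cancel₀ (by exact_mod_cast hN) h1
    have h3 : 4 * (u : ℤ) ^ 2 = ∑ j ∈ range (2 ^ k), x j ^ 2 := by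
      rw [zero_add, pow_one] at h2
      exact_mod_cast h2
    have h4 := sum_sq_mod hx (2 ^ k)
    rw [← h3] at h4
    obtain ⟨c, rfl⟩ := Nat.exists_eq_add_of_le hk
    obtain ⟨b, rfl⟩ := hu
    obtain ⟨a, ha⟩ := h4
    push_cast at ha
    have : 8 * (2 * (b : ℤ) ^ 2 + 2 * b - 2 ^ c - a) = -4 := by
      rw [pow_add] at ha
      linear_combination ha
    omega
  | succ s ih =>
    intro k x hk hx hw
    obtain ⟨k, rfl⟩ : ∃ k', k = k' + 1 := ⟨k - 1, by omega⟩
    obtain ⟨B, hB⟩ := exists_val ℂ Nat.prime_two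
    have hB2 : B.valuation (2 : ℂ) < 1 := by simpa using hB
    obtain ⟨ζ, hζ⟩ := IsAlgClosed.exists_pow_nat_eq (-1 : ℂ) (n := 2 ^ k) (by positivity)
    have hsplit : ∀ (w e : ℂ) (ε : ℤ), w ^ 2 ^ k = ε →
        cv x (2 ^ (k + 1)) w = cv (fun g => x g + ε * x (2 ^ k + g)) (2 ^ k) w := by
      intro w e ε hwe
      unfold cv
      rw [pow_succ, mul_two, sum_range_add, ← sum_add_distrib]
      refine sum_congr rfl fun g _ => ?_
      rw [pow_add, hwe]
      push_cast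
      ring
    have h1 := hw ζ (by rw [pow_succ, pow_mul, hζ]; simp)
    rw [hsplit ζ 0 (-1) (by rw [hζ]; simp), hsplit ζ⁻¹ 0 (-1) (by rw [inv_pow, hζ]; simp)] at h1
    have h2 := four_dvd B.valuation hB2 hζ _ (t := ((4 ^ s * u ^ 2 : ℕ) : ℂ)) (nat_le _ _)
      (by rw [h1]; push_cast; ring)
    have hev : ∀ g < 2 ^ k, Even (x g + 1 * x (2 ^ k + g)) := fun g _ => by
      rw [one_mul]; exact (hx _).add_odd (hx _)
    refine ih k (fun g => if g < 2 ^ k then (x g + 1 * x (2 ^ k + g)) / 2 else 1) (by omega)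
      (fun g => ?_) fun w hw1 => ?_
    · split_ifs with hg
      · obtain ⟨a, ha⟩ := h2 g hg
        obtain ⟨b, hb⟩ := hx g
        exact ⟨b - a, by omega⟩
      · exact odd_one
    · have h3 := hw w (by rw [pow_succ, pow_mul, hw1]; simp)
      rw [hsplit w 0 1 (by rw [hw1]; simp), hsplit w⁻¹ 0 1 (by rw [inv_pow, hw1]; simp),
        cv_half hev, cv_half hev] at h3
      have e : ∀ y : ℂ, cv (fun g => if g < 2 ^ k then (x g + 1 * x (2 ^ k + g)) / 2 else 1) (2 ^ k) y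
          = cv (fun g => (x g + 1 * x (2 ^ k + g)) / 2) (2 ^ k) y := fun y =>
        sum_congr rfl fun g hg => by simp only [if_pos (mem_range.mp hg)]
      rw [e, e]
      linear_combination h3 / 4

theorem two_case {h : ℕ → ℤ} (hs : ∀ j, Odd (h j)) {u a : ℕ} (hu : Odd u)
    (hG : Good h (2 ^ (2 * a) * u ^ 2)) : a ≤ 1 := by
  by_contra ha
  obtain ⟨s, rfl⟩ : ∃ s, a = s + 2 := ⟨a - 2, by omega⟩
  have hu0 : u ≠ 0 := by rintro rfl; simp at hu
  refine descent hu (s + 1) (2 * (s + 2)) (fold h (2 ^ (2 * (s + 2))) (u ^ 2)) (by omega)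
    (fold_odd hs _ hu.pow) fun w hw => ?_
  have h1 := hG.mul_inv (by positivity) (w := w) (by rw [pow_mul w, hw, one_pow])
  rw [cv_fold h _ _ hw, cv_fold h _ _ (w := w⁻¹) (by rw [inv_pow, hw, inv_one])] at h1
  rw [h1]
  push_cast
  rw [pow_mul]
  norm_num

theorem main {h : ℕ → ℤ} (hs : ∀ j, Odd (h j)) {n : ℕ} (hn : n ≠ 0) (hG : Good h n) :
    n = 1 ∨ n = 4 := by
  have h1 := hG.mul_inv hn (w := (1 : ℚ)) (one_pow _)
  rw [inv_one, show (1 : ℚ) = (Int.castRingHom ℚ) 1 by simp, ← map_cv] at h1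
  have h2 : cv h n (1 : ℤ) * cv h n (1 : ℤ) = n := by
    simp only [eq_intCast] at h1
    exact_mod_cast h1
  have h3 : n = (cv h n (1 : ℤ)).natAbs ^ 2 := by
    have := congrArg Int.natAbs h2
    rw [Int.natAbs_mul, Int.natAbs_natCast] at this
    rw [pow_two, this]
  generalize (cv h n (1 : ℤ)).natAbs = m at h3
  have hm : m ≠ 0 := by rintro rfl; simp at h3; exact hn h3
  obtain ⟨a, u, hu, rfl⟩ := Nat.exists_eq_two_pow_mul_odd hm
  have h4 : n = 2 ^ (2 * a) * u ^ 2 := by rw [h3]; ring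
  have ha := two_case hs hu (h4 ▸ hG)
  interval_cases a
  · left
    by_contra hn1
    have hn2 : 1 < n := by omega
    have hζ := Complex.isPrimitiveRoot_exp n hn
    set ζ := Complex.exp (2 * Real.pi * Complex.I / n)
    have h5 := hG.mul_inv hn hζ.pow_eq_one
    have h6 := ah_eq hs hζ.pow_eq_one (hζ.ne_one hn2)
    have h7 := ah_eq hs hζ.inv.pow_eq_one (hζ.inv.ne_one hn2)
    unfold ah at h6 h7
    obtain ⟨B, hB⟩ := exists_val ℂ Nat.prime_two
    have hB2 : B.valuation (2 : ℂ) < 1 := by simpa using hB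
    have hno : Odd n := by rw [h4]; simpa using hu.pow
    have h8 := coprime_eq _ hB (Nat.coprime_two_right.mpr hno)
    have h9 : (n : ℂ) = 2 * (2 * (cv (dd h) n ζ * cv (dd h) n ζ⁻¹)) := by
      rw [← h5, ← h6, ← h7]; ring
    have h10 : B.valuation (2 * (2 * (cv (dd h) n ζ * cv (dd h) n ζ⁻¹))) < 1 := by
      rw [map_mul, map_mul, map_mul]
      refine lt_of_le_of_lt (mul_le_of_le_one_right' (mul_le_one' hB2.le (mul_le_one' ?_ ?_))) hB2
      · exact cv_le _ _ _ (root_eq _ hn hζ.pow_eq_one).le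
      · exact cv_le _ _ _ (root_eq _ hn hζ.inv.pow_eq_one).le
    rw [← h9, h8] at h10
    exact lt_irrefl _ h10
  · right
    have h5 : n = 4 * u ^ 2 := by rw [h4]; norm_num
    have := odd_case hs hu (h5 ▸ hG)
    rw [h5, this]; norm_num

end Vale.Agent.P033
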