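import Mathlib

namespace Vale.Agent.P033

open Polynomial Finset

section basic

variable {L : Type*} [Field L] {Γ : Type*} [LinearOrderedCommGroupWithZero Γ] (v : Valuation L Γ)

lemma int_le (z : ℤ) : v (z : L) ≤ 1 := by
  have : (z : L) ∈ v.integer := intCast_mem v.integer z
  exact this

lemma nat_le (z : ℕ) : v (z : L) ≤ 1 := by
  have : (z : L) ∈ v.integer := natCast_mem v.integer z
  exact this

lemma root_eq {w : L} {n : ℕ} (hn : n ≠ 0) (hw : w ^ n = 1) : v w = 1 := by
  have h : v w ^ n = 1 := by rw [← map_pow, hw, map_one]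
  exact (pow_eq_one_iff_left hn).mp h

lemma coprime_eq {p m : ℕ} (hp : v (p : L) < 1) (h : Nat.Coprime m p) : v (m : L) = 1 := by
  refine le_antisymm (nat_le v m) (not_lt.mp fun hm => ?_)
  have hc : IsCoprime (m : ℤ) (p : ℤ) := Nat.isCoprime_iff_coprime.mpr h
  obtain ⟨a, b, hab⟩ := hc
  have h1 : (a : L) * m + (b : L) * p = 1 := by exact_mod_cast congrArg (Int.cast : ℤ → L) hab
  have h2 : v ((a : L) * m + (b : L) * p) < 1 := by
    apply v.map_add_lt
    · rw [map_mul]
      exact lt_of_le_of_lt (mul_le_of_le_one_left' (int_le v a)) hm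
    · rw [map_mul]
      exact lt_of_le_of_lt (mul_le_of_le_one_left' (int_le v b)) hp
  rw [h1, map_one] at h2
  exact lt_irrefl _ h2

lemma aeval_le (g : ℤ[X]) {x : L} (hx : v x ≤ 1) : v (aeval x g) ≤ 1 := by
  rw [aeval_eq_sum_range]
  apply v.map_sum_le
  intro i _
  rw [zsmul_eq_mul, map_mul, map_pow]
  exact mul_le_one' (int_le v _) (pow_le_one' hx _)

lemma pow_sub_one_le {x : L} (hx : v x ≤ 1) (m : ℕ) : v (x ^ m - 1) ≤ v (x - 1) := by
  rw [← geom_sum_mul, map_mul]
  apply mul_le_of_le_one_left'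
  apply v.map_sum_le
  intro i _
  rw [map_pow]
  exact pow_le_one' hx _

lemma exists_binom {p : ℕ} (hp : p.Prime) {a : L} (ha : v a ≤ 1) (k : ℕ) :
    ∃ r : L, v r ≤ 1 ∧ (1 + a) ^ p ^ k = 1 + a ^ p ^ k + p * a * r := by
  obtain ⟨r, hr⟩ := exists_add_pow_prime_pow_eq hp (1 : v.integer) ⟨a, ha⟩ k
  refine ⟨r, r.2, ?_⟩
  have := congrArg (fun x : v.integer => (x : L)) hr
  simpa using this

lemma pow_prime_le {p : ℕ} (hp : p.Prime) {a : L} (ha : v a ≤ 1) (h : v a ^ (p - 1) ≤ v (p : L)) :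
    v ((1 + a) ^ p - 1) ≤ v (p : L) * v a := by
  obtain ⟨r, hr, e⟩ := exists_binom v hp ha 1
  rw [pow_one] at e
  have : (1 + a) ^ p - 1 = a ^ p + p * a * r := by rw [e]; ring
  rw [this]
  apply v.map_add_le
  · have : a ^ p = a ^ (p - 1) * a := by
      rw [← pow_succ, Nat.sub_add_cancel hp.one_le]
    rw [this, map_mul, map_pow]
    exact mul_le_mul_left h _
  · rw [map_mul, map_mul]
    exact mul_le_of_le_one_right' hr

lemma pow_prime_pow_le {p : ℕ} (hp : p.Prime) {a : L} (ha : v a ≤ 1)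
    (h : v a ^ (p - 1) ≤ v (p : L)) (k : ℕ) :
    v ((1 + a) ^ p ^ k - 1) ≤ v (p : L) ^ k * v a := by
  induction k with
  | zero => simp
  | succ k ih =>
    set b := (1 + a) ^ p ^ k - 1 with hb
    have hba : v b ≤ v a :=
      ih.trans (mul_le_of_le_one_left' (pow_le_one' (nat_le v p) _))
    have h1 : (1 + a) ^ p ^ (k + 1) = (1 + b) ^ p := by
      rw [hb, pow_succ, pow_mul]; congr 1; ring
    rw [h1]
    refine (pow_prime_le v hp (hba.trans ha) ((pow_le_pow_left' hba _).trans h)).trans ?_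
    rw [pow_succ', mul_assoc]
    exact mul_le_mul_right ih _

lemma lam_le {p : ℕ} (hp : p.Prime) {z : L} (hz : z ^ p = 1) :
    v (z - 1) ^ (p - 1) ≤ v (p : L) := by
  by_cases h1 : z - 1 = 0
  · rw [h1, map_zero, zero_pow (by have := hp.two_le; omega)]
    exact zero_le
  have hz1 : v (z - 1) ≤ 1 := v.map_sub_le (root_eq v hp.ne_zero hz).le (by simp)
  obtain ⟨r, hr, e⟩ := exists_binom v hp hz1 1
  rw [pow_one, add_sub_cancel, hz] at e
  have e2 : (z - 1) ^ (p - 1) = -(p * r) := by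
    apply mul_right_cancel₀ h1
    rw [← pow_succ, Nat.sub_add_cancel hp.one_le]
    linear_combination -e
  rw [← map_pow, e2, Valuation.map_neg, map_mul]
  exact mul_le_of_le_one_right' hr

lemma lam_lt {p : ℕ} (hp : p.Prime) (hv : v (p : L) < 1) {z : L} (hz : z ^ p = 1) :
    v (z - 1) < 1 := by
  have h := lt_of_le_of_lt (lam_le v hp hz) hv
  by_contra h2
  push Not at h2
  exact absurd h (not_lt.mpr (one_le_pow_of_one_le' h2 _))

/-- principal units -/
def P1 (x : L) : Prop := v (x - 1) < 1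

lemma P1.val {x : L} (h : P1 v x) : v x = 1 := by
  have := v.map_one_add_of_lt h
  rwa [add_sub_cancel] at this

lemma P1.one : P1 v (1 : L) := by simp [P1]

lemma P1.mul {x y : L} (hx : P1 v x) (hy : P1 v y) : P1 v (x * y) := by
  have : x * y - 1 = x * (y - 1) + (x - 1) := by ring
  unfold P1
  rw [this]
  apply v.map_add_lt _ hx
  rw [map_mul, hx.val, one_mul]
  exact hy

lemma P1.inv {x : L} (hx : P1 v x) : P1 v x⁻¹ := by
  have h0 : x ≠ 0 := by
    intro h
    have := hx.val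
    rw [h, map_zero] at this
    exact zero_ne_one this
  have : x⁻¹ - 1 = -(x⁻¹ * (x - 1)) := by field_simp; ring
  unfold P1
  rw [this, Valuation.map_neg, map_mul, map_inv₀, hx.val, inv_one, one_mul]
  exact hx

lemma P1.pow {x : L} (hx : P1 v x) (k : ℕ) : P1 v (x ^ k) := by
  induction k with
  | zero => simpa using P1.one v
  | succ k ih => rw [pow_succ]; exact ih.mul v hx

lemma P1.zpow {x : L} (hx : P1 v x) (k : ℤ) : P1 v (x ^ k) := by
  rcases Int.eq_nat_or_neg k with ⟨m, rfl | rfl⟩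
  · rw [zpow_natCast]; exact hx.pow v m
  · rw [zpow_neg, zpow_natCast]; exact (hx.pow v m).inv v

lemma eq_one_of_P1 {x : L} {M : ℕ} (hM : v (M : L) = 1) (hx : P1 v x) (h : x ^ M = 1) : x = 1 := by
  by_contra h1
  have hs : ∑ i ∈ range M, x ^ i = 0 := by
    have := geom_sum_mul x M
    rw [h, sub_self] at this
    exact (mul_eq_zero.mp this).resolve_right (sub_ne_zero.mpr h1)
  have h2 : (M : L) = -∑ i ∈ range M, (x ^ i - 1) := by
    rw [sum_sub_distrib, hs]; simp
  have h3 : v (∑ i ∈ range M, (x ^ i - 1)) < 1 :=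
    v.map_sum_lt one_ne_zero fun i _ => hx.pow v i
  rw [h2, Valuation.map_neg] at hM
  rw [hM] at h3
  exact lt_irrefl _ h3

lemma pow_prime_pow_eq_one {p : ℕ} (hp : p.Prime) (hv : v (p : L) < 1) {x : L} {N : ℕ}
    (hN : N ≠ 0) (hx : P1 v x) (h : x ^ N = 1) : ∃ e : ℕ, x ^ p ^ e = 1 := by
  obtain ⟨e, m, hm, rfl⟩ := Nat.exists_eq_pow_mul_and_not_dvd hN p hp.one_lt.ne'
  refine ⟨e, eq_one_of_P1 v (M := m) (coprime_eq v hv ?_) (hx.pow v _) ?_⟩
  · exact ((Nat.Prime.coprime_iff_not_dvd hp).mpr hm).symm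
  · rw [← pow_mul, h]

end basic

lemma exists_val (L : Type*) [Field L] [CharZero L] {p : ℕ} (hp : p.Prime) :
    ∃ A : ValuationSubring L, A.valuation (p : L) < 1 := by
  let B : Subring L := (Int.castRingHom L).range
  let I : Ideal B := Ideal.span {(p : B)}
  have hI : I ≠ ⊤ := by
    rw [Ne, Ideal.span_singleton_eq_top, isUnit_iff_exists_inv]
    rintro ⟨⟨b, z, rfl⟩, hb⟩
    have h1 : (p : L) * (z : L) = 1 := by
      have := congrArg (fun x : B => (x : L)) hb
      simpa using this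
    have h2 : (p : ℤ) * z = 1 := by exact_mod_cast h1
    have h3 : (p : ℤ) ∣ 1 := ⟨z, h2.symm⟩
    have h4 : p ∣ 1 := by exact_mod_cast h3
    exact hp.one_lt.ne' (Nat.dvd_one.mp h4)
  obtain ⟨A, -, hA⟩ := Ideal.image_subset_nonunits_valuationSubring I hI
  refine ⟨A, A.mem_nonunits_iff.mp (hA ⟨(p : B), Ideal.subset_span rfl, by simp⟩)⟩

lemma isIntegral_of_val {L : Type*} [Field L] {x : L}
    (h : ∀ A : ValuationSubring L, A.valuation x ≤ 1) : IsIntegral ℤ x := by
  have h1 : x ∈ (integralClosure (Subring.closure (∅ : Set L)) L).toSubring := by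
    rw [← iInf_valuationSubring_superset]
    simp only [Subring.mem_iInf]
    intro V
    exact V.1.mem_of_valuation_le_one x (h V.1)
  have h2 : IsIntegral (Subring.closure (∅ : Set L)) x := h1
  have : Algebra.IsIntegral ℤ (Subring.closure (∅ : Set L)) := by
    constructor
    rintro ⟨y, hy⟩
    rw [Subring.closure_empty, Subring.mem_bot] at hy
    obtain ⟨z, rfl⟩ := hy
    exact isIntegral_algebraMap (x := z)
  exact isIntegral_trans x h2

end Vale.Agent.P033
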